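import Vale.Agent.P307.Defs

open Cardinal FirstOrder FirstOrder.Language FirstOrder.Language.Structure

universe u

namespace Vale.Agent.P307

variable {L : FirstOrder.Language.{u, u}}

/-- The set of unary predicates satisfied by an element. -/
def color {M : Type u} [L.Structure M] (a : M) : Set (L.Relations 1) :=
  {r | RelMap r (fun _ : Fin 1 => a)}

theorem color_emb {M N : Type u} [L.Structure M] [L.Structure N] (f : M ↪[L] N) (a : M) :
    color (L := L) (f a) = color a := by
  ext r
  exact f.map_rel r (fun _ => a)

theorem color_equiv {M N : Type u} [L.Structure M] [L.Structure N] (f : M ≃[L] N) (a : M) :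
    color (L := L) (f a) = color a := by
  ext r
  exact f.map_rel r (fun _ => a)

theorem relMap_iff_color {M : Type u} [L.Structure M] (r : L.Relations 1) (x : Fin 1 → M) :
    RelMap r x ↔ r ∈ color (L := L) (x 0) := by
  have h1 : x = fun _ => x 0 := by
    funext i
    rw [Subsingleton.elim i 0]
  conv_lhs => rw [h1]
  rfl

def mkEmb (hL : IsMonadic L) {M N : Type u} [L.Structure M] [L.Structure N] (f : M → N)
    (hf : Function.Injective f) (hc : ∀ a, color (L := L) (f a) = color a) : M ↪[L] N where
  toFun := f
  inj' := hf
  map_fun' := fun {n} F _ => ((hL.1 n).false F).elim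
  map_rel' := fun {n} r x => by
    by_cases hn : n = 1
    · subst hn
      rw [relMap_iff_color, relMap_iff_color]
      simp only [Function.comp_apply, hc]
    · exact ((hL.2 n hn).false r).elim

@[simp] theorem mkEmb_apply (hL : IsMonadic L) {M N : Type u} [L.Structure M] [L.Structure N]
    (f : M → N) (hf : Function.Injective f) (hc : ∀ a, color (L := L) (f a) = color a) (a : M) :
    mkEmb hL f hf hc a = f a := rfl

def mkEquiv (hL : IsMonadic L) {M N : Type u} [L.Structure M] [L.Structure N] (f : M ≃ N)
    (hc : ∀ a, color (L := L) (f a) = color a) : M ≃[L] N where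
  toEquiv := f
  map_fun' := fun {n} F _ => ((hL.1 n).false F).elim
  map_rel' := fun {n} r x => by
    by_cases hn : n = 1
    · subst hn
      rw [relMap_iff_color, relMap_iff_color]
      simp only [Function.comp_apply]
      exact Set.ext_iff.1 (hc (x 0)) r
    · exact ((hL.2 n hn).false r).elim

@[simp] theorem mkEquiv_apply (hL : IsMonadic L) {M N : Type u} [L.Structure M] [L.Structure N]
    (f : M ≃ N) (hc : ∀ a, color (L := L) (f a) = color a) (a : M) :
    mkEquiv hL f hc a = f a := rfl

def subOf (hL : IsMonadic L) {M : Type u} [L.Structure M] (A : Set M) : L.Substructure M where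
  carrier := A
  fun_mem := fun {n} F => ((hL.1 n).false F).elim

@[simp] theorem mem_subOf (hL : IsMonadic L) {M : Type u} [L.Structure M] (A : Set M) (x : M) :
    x ∈ subOf hL A ↔ x ∈ A := Iff.rfl

@[simp] theorem coe_subOf (hL : IsMonadic L) {M : Type u} [L.Structure M] (A : Set M) :
    ((subOf hL A : L.Substructure M) : Set M) = A := rfl

/-- number of elements of a given color -/
def dim (M : Type u) [L.Structure M] (p : Set (L.Relations 1)) : Cardinal.{u} :=
  Cardinal.mk {a : M | color (L := L) a = p}

theorem exists_equiv_of_fibers {α β : Type u} {γ : Type*} (c : α → γ) (d : β → γ)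
    (h : ∀ p, Cardinal.mk {a // c a = p} = Cardinal.mk {b // d b = p}) :
    ∃ e : α ≃ β, ∀ a, d (e a) = c a := by
  have h' : ∀ p, Nonempty ({a // c a = p} ≃ {b // d b = p}) := fun p => Cardinal.eq.1 (h p)
  choose e he using fun p => (⟨(h' p).some, trivial⟩ : ∃ _ : ({a // c a = p} ≃ {b // d b = p}), True)
  refine ⟨(Equiv.sigmaFiberEquiv c).symm.trans
    ((Equiv.sigmaCongrRight e).trans (Equiv.sigmaFiberEquiv d)), fun a => ?_⟩
  exact (e (c a) ⟨a, rfl⟩).2

theorem dim_eq_of_equiv {M N : Type u} [L.Structure M] [L.Structure N] (g : M ≃[L] N)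
    (p : Set (L.Relations 1)) : dim M p = dim N p := by
  unfold dim
  refine Cardinal.mk_congr (Equiv.subtypeEquiv g.toEquiv fun a => ?_)
  have : color (L := L) (g a) = color a := color_equiv g a
  simp only [Set.mem_ofPred_eq]
  constructor
  · intro h; exact this.trans h
  · intro h; exact this.symm.trans h

theorem equiv_of_dim_eq (hL : IsMonadic L) {M N : Type u} [L.Structure M] [L.Structure N]
    (h : ∀ p, dim (L := L) M p = dim N p) : Nonempty (M ≃[L] N) := by
  obtain ⟨e, he⟩ := exists_equiv_of_fibers (fun a : M => color (L := L) a)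
    (fun b : N => color (L := L) b) h
  exact ⟨mkEquiv hL e he⟩

theorem dim_le_of_emb {M N : Type u} [L.Structure M] [L.Structure N] (f : M ↪[L] N)
    (p : Set (L.Relations 1)) : dim M p ≤ dim N p := by
  unfold dim
  refine Cardinal.mk_le_of_injective (f := fun a => ⟨f a.1, ?_⟩) ?_
  · exact (color_emb f a.1).trans a.2
  · intro a b hab
    exact Subtype.ext (f.injective (congrArg Subtype.val hab))

end Vale.Agent.P307
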