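import Mathlib

open Cardinal FirstOrder FirstOrder.Language

universe u

namespace Vale.Agent.P307

/-- An abstract elementary class in the vocabulary `L`, presented by its class of models `Mem`
and its class of strong embeddings `Strong` (`f : M ↪[L] N` is strong iff `M`, `N` are in the class
and the image of `f` is a strong substructure of `N`). -/
structure AEC (L : FirstOrder.Language.{u, u}) where
  Mem : ∀ (M : Type u) [L.Structure M], Prop
  Strong : ∀ {M N : Type u} [L.Structure M] [L.Structure N], (M ↪[L] N) → Prop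
  strong_dom : ∀ {M N : Type u} [L.Structure M] [L.Structure N] {f : M ↪[L] N},
    Strong f → Mem M
  strong_cod : ∀ {M N : Type u} [L.Structure M] [L.Structure N] {f : M ↪[L] N},
    Strong f → Mem N
  mem_of_equiv : ∀ {M N : Type u} [L.Structure M] [L.Structure N],
    (M ≃[L] N) → Mem M → Mem N
  strong_of_equiv : ∀ {M N : Type u} [L.Structure M] [L.Structure N] (e : M ≃[L] N),
    Mem M → Strong e.toEmbedding
  strong_comp : ∀ {M N P : Type u} [L.Structure M] [L.Structure N] [L.Structure P]
    {f : M ↪[L] N} {g : N ↪[L] P}, Strong f → Strong g → Strong (g.comp f)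
  coherence : ∀ {M N P : Type u} [L.Structure M] [L.Structure N] [L.Structure P]
    (f : M ↪[L] N) (g : N ↪[L] P), Strong g → Strong (g.comp f) → Strong f
  chain_union : ∀ {ι : Type u} [LinearOrder ι] [WellFoundedLT ι] [Nonempty ι]
    {U : Type u} [L.Structure U] (S : ι → L.Substructure U) (hS : ∀ i j, i ≤ j → S i ≤ S j),
    (∀ i j (h : i ≤ j), Strong (Substructure.inclusion (hS i j h))) →
    (∀ x : U, ∃ i, x ∈ S i) → Mem U ∧ ∀ i, Strong (S i).subtype
  chain_smooth : ∀ {ι : Type u} [LinearOrder ι] [WellFoundedLT ι] [Nonempty ι]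
    {U N : Type u} [L.Structure U] [L.Structure N]
    (S : ι → L.Substructure U) (hS : ∀ i j, i ≤ j → S i ≤ S j),
    (∀ i j (h : i ≤ j), Strong (Substructure.inclusion (hS i j h))) →
    (∀ x : U, ∃ i, x ∈ S i) →
    ∀ g : U ↪[L] N, (∀ i, Strong (g.comp (S i).subtype)) → Strong g
  exists_ls : ∃ l : Cardinal.{u}, ℵ₀ ≤ l ∧ L.card ≤ l ∧
    ∀ (M : Type u) [L.Structure M], Mem M → ∀ A : Set M,
      ∃ S : L.Substructure M, A ⊆ S ∧ Strong S.subtype ∧ Cardinal.mk S ≤ Cardinal.mk A + l

variable {L : FirstOrder.Language.{u, u}}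

/-- `l` witnesses the Loewenheim-Skolem property of `K`. -/
def AEC.IsLSBound (K : AEC L) (l : Cardinal.{u}) : Prop :=
  ℵ₀ ≤ l ∧ L.card ≤ l ∧
    ∀ (M : Type u) [L.Structure M], K.Mem M → ∀ A : Set M,
      ∃ S : L.Substructure M, A ⊆ S ∧ K.Strong S.subtype ∧ Cardinal.mk S ≤ Cardinal.mk A + l

/-- The Loewenheim-Skolem number `LS(K)`: the least witness. -/
noncomputable def AEC.LS (K : AEC L) : Cardinal.{u} := sInf {l | K.IsLSBound l}

/-- `K` is categorical in `κ`: it has a model of cardinality `κ` and any two are isomorphic. -/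
def AEC.Categorical (K : AEC L) (κ : Cardinal.{u}) : Prop :=
  (∃ (M : Type u) (_ : L.Structure M), K.Mem M ∧ Cardinal.mk M = κ) ∧
  ∀ (M N : Type u) [L.Structure M] [L.Structure N], K.Mem M → K.Mem N →
    Cardinal.mk M = κ → Cardinal.mk N = κ → Nonempty (M ≃[L] N)

/-- A monadic vocabulary: the only symbols are unary relation symbols. -/
def IsMonadic (L : FirstOrder.Language.{u, u}) : Prop :=
  (∀ n, IsEmpty (L.Functions n)) ∧ ∀ n, n ≠ 1 → IsEmpty (L.Relations n)

end Vale.Agent.P307
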