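import Vale.Agent.P307.Resolution

open Cardinal FirstOrder FirstOrder.Language FirstOrder.Language.Structure

universe u

namespace Vale.Agent.P307

variable {L : FirstOrder.Language.{u, u}}

/-- Step A: an isomorphism `M ≃ N` agreeing with `f` on a small set. -/
theorem exists_equiv_agree (hL : IsMonadic L) {l : Cardinal.{u}} (hl : ℵ₀ ≤ l)
    {M N : Type u} [L.Structure M] [L.Structure N] (f : M ↪[L] N)
    (hnew : ∀ b, b ∉ Set.range f → l < dim M (color (L := L) b))
    (hR : Cardinal.mk ((Set.range f)ᶜ : Set N) ≤ l)
    (B : Set M) (hB : Cardinal.mk B ≤ l) :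
    ∃ g : M ≃[L] N, ∀ a ∈ B, g a = f a := by
  classical
  let c' : M → (Set (L.Relations 1)) ⊕ N := fun a => if a ∈ B then Sum.inr (f a) else Sum.inl (color a)
  let d' : N → (Set (L.Relations 1)) ⊕ N := fun b => if b ∈ f '' B then Sum.inr b else Sum.inl (color b)
  have hfc : ∀ a, d' (f a) = c' a := by
    intro a
    by_cases ha : a ∈ B
    · have : f a ∈ f '' B := ⟨a, ha, rfl⟩
      simp only [d', c', if_pos this, if_pos ha]
    · have : f a ∉ f '' B := by
        rintro ⟨a', ha', h⟩
        exact ha (f.injective h ▸ ha')
      simp only [d', c', if_neg this, if_neg ha, color_emb]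
  have key : ∀ q, Cardinal.mk {a // c' a = q} = Cardinal.mk {b // d' b = q} := by
    intro q
    apply le_antisymm
    · refine Cardinal.mk_le_of_injective (f := fun a => ⟨f a.1, (hfc a.1).trans a.2⟩) ?_
      intro a b hab
      exact Subtype.ext (f.injective (congrArg Subtype.val hab))
    · have hsub : {b | d' b = q} ⊆ f '' {a | c' a = q} ∪ ({b | d' b = q} ∩ (Set.range f)ᶜ) := by
        intro b hb
        by_cases hbr : b ∈ Set.range f
        · obtain ⟨a, rfl⟩ := hbr
          exact Or.inl ⟨a, (hfc a).symm.trans hb, rfl⟩
        · exact Or.inr ⟨hb, hbr⟩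
      have h1 : Cardinal.mk {b | d' b = q} ≤ Cardinal.mk {a | c' a = q} +
          Cardinal.mk ({b | d' b = q} ∩ (Set.range f)ᶜ : Set N) :=
        (Cardinal.mk_le_mk_of_subset hsub).trans ((Cardinal.mk_union_le _ _).trans
          (add_le_add_left Cardinal.mk_image_le _))
      by_cases hemp : ({b | d' b = q} ∩ (Set.range f)ᶜ : Set N) = ∅
      · rw [hemp] at h1
        have h1' : Cardinal.mk {b | d' b = q} ≤ Cardinal.mk {a | c' a = q} := by simpa using h1
        exact h1'
      · obtain ⟨b, hb1, hb2⟩ := Set.nonempty_iff_ne_empty.2 hemp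
        have hbB : b ∉ f '' B := fun ⟨a, _, h⟩ => hb2 ⟨a, h⟩
        have hq : q = Sum.inl (color b) := by
          have : d' b = q := hb1
          rw [← this]
          simp only [d', if_neg hbB]
        have hbig := hnew b hb2
        have hsub2 : {a : M | color (L := L) a = color b} ⊆ {a | c' a = q} ∪ B := by
          intro a ha
          by_cases haB : a ∈ B
          · exact Or.inr haB
          · left
            have ha' : color (L := L) a = color b := ha
            change c' a = q
            rw [hq]
            simp only [c', if_neg haB, ha']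
        have h2 : dim M (color (L := L) b) ≤ Cardinal.mk {a | c' a = q} + l :=
          (Cardinal.mk_le_mk_of_subset hsub2).trans ((Cardinal.mk_union_le _ _).trans
            (add_le_add_right hB _))
        have h3 : l < Cardinal.mk {a | c' a = q} := by
          by_contra hcon
          rw [not_lt] at hcon
          have : dim M (color (L := L) b) ≤ l := by
            calc _ ≤ Cardinal.mk {a | c' a = q} + l := h2
              _ ≤ l + l := add_le_add_left hcon _
              _ = l := Cardinal.add_eq_self hl
          exact absurd hbig (not_lt.2 this)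
        have h4 : Cardinal.mk ({b | d' b = q} ∩ (Set.range f)ᶜ : Set N) ≤ l :=
          (Cardinal.mk_le_mk_of_subset Set.inter_subset_right).trans hR
        calc Cardinal.mk {b | d' b = q} ≤ _ := h1
          _ ≤ Cardinal.mk {a | c' a = q} + l := add_le_add_right h4 _
          _ = Cardinal.mk {a | c' a = q} := Cardinal.add_eq_left (hl.trans h3.le) h3.le
  obtain ⟨e, he⟩ := exists_equiv_of_fibers c' d' key
  have hagree : ∀ a ∈ B, e a = f a := by
    intro a ha
    have h := he a
    by_cases hm : e a ∈ f '' B
    · simp only [d', c', if_pos hm, if_pos ha] at h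
      exact Sum.inr.inj h
    · simp only [d', c', if_neg hm, if_pos ha] at h
      exact absurd h (by simp)
  have hcol : ∀ a, color (L := L) (e a) = color a := by
    intro a
    by_cases ha : a ∈ B
    · rw [hagree a ha, color_emb]
    · have h := he a
      by_cases hm : e a ∈ f '' B
      · simp only [d', c', if_pos hm, if_neg ha] at h
        exact absurd h (by simp)
      · simp only [d', c', if_neg hm, if_neg ha] at h
        exact Sum.inl.inj h
  exact ⟨mkEquiv hL e hcol, fun a ha => hagree a ha⟩

/-- Step B. -/
theorem strong_comp_of_small (hL : IsMonadic L) (K : AEC L) {l : Cardinal.{u}}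
    (hl : K.IsLSBound l) {M N : Type u} [L.Structure M] [L.Structure N] (f : M ↪[L] N)
    (hM : K.Mem M)
    (hnew : ∀ b, b ∉ Set.range f → l < dim M (color (L := L) b))
    (hR : Cardinal.mk ((Set.range f)ᶜ : Set N) ≤ l) :
    ∀ (θ : Cardinal.{u}) (P : Type u) [L.Structure P] (h : P ↪[L] M), Cardinal.mk P = θ →
      K.Strong h → K.Strong (f.comp h) := by
  intro θ
  induction θ using WellFoundedLT.induction with
  | ind θ ih =>
    intro P _ h hP hstr
    by_cases hsmall : Cardinal.mk P ≤ l
    · obtain ⟨g, hg⟩ := exists_equiv_agree hL hl.1 f hnew hR (Set.range h)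
        (Cardinal.mk_range_le.trans hsmall)
      have h1 : K.Strong (g.toEmbedding.comp h) := K.strong_comp hstr (K.strong_of_equiv g hM)
      have h2 : g.toEmbedding.comp h = f.comp h := by
        ext x
        exact hg (h x) ⟨x, rfl⟩
      rwa [h2] at h1
    · rw [not_le] at hsmall
      obtain ⟨ι, _, _, _, T, hT, h1, h2, h3, h4⟩ := resolution K hl (K.strong_dom hstr) hsmall
      refine K.chain_smooth T hT h1 h2 (f.comp h) fun i => ?_
      have := ih (Cardinal.mk (T i)) (hP ▸ h4 i) (T i) (h.comp (T i).subtype) rfl
        (K.strong_comp (h3 i) hstr)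
      exact this

theorem strong_of_small (hL : IsMonadic L) (K : AEC L) {l : Cardinal.{u}}
    (hl : K.IsLSBound l) {M N : Type u} [L.Structure M] [L.Structure N] (f : M ↪[L] N)
    (hM : K.Mem M)
    (hnew : ∀ b, b ∉ Set.range f → l < dim M (color (L := L) b))
    (hR : Cardinal.mk ((Set.range f)ᶜ : Set N) ≤ l) : K.Strong f := by
  have := strong_comp_of_small hL K hl f hM hnew hR _ M (Embedding.refl L M) rfl (K.strong_refl hM)
  exact this

end Vale.Agent.P307
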