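import Vale.Agent.P307.Extend

open Cardinal FirstOrder FirstOrder.Language FirstOrder.Language.Structure

universe u

namespace Vale.Agent.P307

variable {L : FirstOrder.Language.{u, u}}

theorem color_subtype {N : Type u} [L.Structure N] (S : L.Substructure N) (x : S) :
    color (L := L) x = color (L := L) (x : N) :=
  (color_emb S.subtype x).symm

/-- Lemma 1: adding arbitrarily many elements of big colors is a strong extension. -/
theorem strong_of_big (hL : IsMonadic L) (K : AEC L) {l : Cardinal.{u}} (hl : K.IsLSBound l) :
    ∀ (θ : Cardinal.{u}) (M N : Type u) [L.Structure M] [L.Structure N] (f : M ↪[L] N),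
      K.Mem M → (∀ b, b ∉ Set.range f → l < dim M (color (L := L) b)) →
      Cardinal.mk ((Set.range f)ᶜ : Set N) = θ → K.Strong f := by
  intro θ
  induction θ using WellFoundedLT.induction with
  | ind θ ih =>
    intro M N _ _ f hM hnew hθ
    by_cases hsmall : θ ≤ l
    · exact strong_of_small hL K hl f hM hnew (hθ ▸ hsmall)
    · rw [not_le] at hsmall
      have hinf : ℵ₀ ≤ θ := hl.1.trans hsmall.le
      let ι := θ.ord.ToType
      have hι : Cardinal.mk ι = θ := Cardinal.mk_ord_toType _
      obtain ⟨e⟩ := Cardinal.eq.1 (hθ.trans hι.symm)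
      have hne : Nonempty ι := by
        rw [← Cardinal.mk_ne_zero_iff, hι]
        exact (lt_of_lt_of_le Cardinal.aleph0_pos hinf).ne'
      have hIic : ∀ i : ι, Cardinal.mk (Set.Iic i) < θ := by
        intro i
        have h1 : Cardinal.mk (Set.Iio i) < θ := by
          have := Cardinal.mk_Iio_lt i (by simp [ι])
          rwa [hι] at this
        have h2 : Set.Iic i = insert i (Set.Iio i) := by
          ext x; simp [le_iff_eq_or_lt]
        rw [h2]
        refine lt_of_le_of_lt (Cardinal.mk_insert_le) ?_
        exact Cardinal.add_lt_of_lt hinf h1 (lt_of_lt_of_le Cardinal.one_lt_aleph0 hinf)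
      let A : ι → Set N := fun i => Set.range f ∪ {b | ∃ hb : b ∈ (Set.range f)ᶜ, e ⟨b, hb⟩ ≤ i}
      let S : ι → L.Substructure N := fun i => subOf hL (A i)
      have hS : ∀ i j, i ≤ j → S i ≤ S j := by
        intro i j hij x hx
        rcases hx with hx | ⟨hb, hx⟩
        · exact Or.inl hx
        · exact Or.inr ⟨hb, hx.trans hij⟩
      have hfS : ∀ i (c : M), f c ∈ S i := fun i c => Or.inl ⟨c, rfl⟩
      let fi : ∀ i, M ↪[L] S i := fun i => Embedding.codRestrict (S i) f (hfS i)
      have hfi : ∀ i, K.Strong (fi i) := by
        intro i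
        refine ih (Cardinal.mk ((Set.range (fi i))ᶜ : Set (S i))) ?_ M (S i) (fi i) hM ?_ rfl
        · refine lt_of_le_of_lt ?_ (hIic i)
          have hx : ∀ x : ((Set.range (fi i))ᶜ : Set (S i)), (x.1 : N) ∉ Set.range f := by
            rintro ⟨x, hx⟩ ⟨a, ha⟩
            exact hx ⟨a, Subtype.ext ha⟩
          have hx2 : ∀ x : ((Set.range (fi i))ᶜ : Set (S i)), e ⟨(x.1 : N), hx x⟩ ≤ i := by
            intro x
            rcases x.1.2 with h | ⟨hb, h⟩
            · exact absurd h (hx x)
            · exact h
          refine Cardinal.mk_le_of_injective (f := fun x => ⟨e ⟨(x.1 : N), hx x⟩, hx2 x⟩) ?_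
          intro x y hxy
          have h1 := congrArg Subtype.val hxy
          have h2 := e.injective h1
          have h3 : ((x.1 : N)) = (y.1 : N) := Subtype.mk.inj h2
          exact Subtype.ext (Subtype.ext h3)
        · intro b hb
          rw [color_subtype]
          apply hnew
          rintro ⟨a, ha⟩
          exact hb ⟨a, Subtype.ext ha⟩
      have hincl : ∀ i j (h : i ≤ j), K.Strong (Substructure.inclusion (hS i j h)) := by
        intro i j h
        refine ih (Cardinal.mk ((Set.range (Substructure.inclusion (hS i j h)))ᶜ : Set (S j))) ?_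
          (S i) (S j) _ (K.strong_cod (hfi i)) ?_ rfl
        · refine lt_of_le_of_lt ?_ (hIic j)
          have hx : ∀ x : ((Set.range (Substructure.inclusion (hS i j h)))ᶜ : Set (S j)),
              (x.1 : N) ∉ Set.range f := by
            rintro ⟨x, hx⟩ ⟨a, ha⟩
            exact hx ⟨⟨f a, hfS i a⟩, Subtype.ext ha⟩
          have hx2 : ∀ x : ((Set.range (Substructure.inclusion (hS i j h)))ᶜ : Set (S j)),
              e ⟨(x.1 : N), hx x⟩ ≤ j := by
            intro x
            rcases x.1.2 with h | ⟨hb, h⟩
            · exact absurd h (hx x)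
            · exact h
          refine Cardinal.mk_le_of_injective (f := fun x => ⟨e ⟨(x.1 : N), hx x⟩, hx2 x⟩) ?_
          intro x y hxy
          have h1 := congrArg Subtype.val hxy
          have h2 := e.injective h1
          have h3 : ((x.1 : N)) = (y.1 : N) := Subtype.mk.inj h2
          exact Subtype.ext (Subtype.ext h3)
        · intro b hb
          rw [color_subtype]
          have hbf : (b : N) ∉ Set.range f := by
            rintro ⟨a, ha⟩
            exact hb ⟨⟨f a, hfS i a⟩, Subtype.ext ha⟩
          exact lt_of_lt_of_le (hnew _ hbf) (dim_le_of_emb (fi i) _)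
      have hcover : ∀ x : N, ∃ i, x ∈ S i := by
        intro x
        by_cases hx : x ∈ Set.range f
        · exact ⟨hne.some, Or.inl hx⟩
        · exact ⟨e ⟨x, hx⟩, Or.inr ⟨hx, le_rfl⟩⟩
      obtain ⟨_, hsub⟩ := K.chain_union S hS hincl hcover
      have := K.strong_comp (hfi hne.some) (hsub hne.some)
      have h2 : (S hne.some).subtype.comp (fi hne.some) = f := by
        ext x; rfl
      rwa [h2] at this

end Vale.Agent.P307
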