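import Vale.Agent.P307.Extend2

open Cardinal FirstOrder FirstOrder.Language FirstOrder.Language.Structure

universe u

namespace Vale.Agent.P307

variable {L : FirstOrder.Language.{u, u}}

/-- The structure on `N` determined by a coloring. -/
@[reducible] def structOfColor (hL : IsMonadic L) {N : Type u} (col : N → Set (L.Relations 1)) :
    L.Structure N where
  funMap := fun {n} F _ => ((hL.1 n).false F).elim
  RelMap := fun {n} r xs =>
    match n, r, xs with
    | 0, _, _ => False
    | 1, r, xs => r ∈ col (xs 0)
    | (_ + 2), _, _ => False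

theorem color_structOfColor (hL : IsMonadic L) {N : Type u} (col : N → Set (L.Relations 1))
    (b : N) : @color L N (structOfColor hL col) b = col b := by
  ext r
  rfl

theorem exists_extension (hL : IsMonadic L) (K : AEC L) {l : Cardinal.{u}} (hl : K.IsLSBound l)
    {M : Type u} [L.Structure M] (hM : K.Mem M) (p0 : Set (L.Relations 1))
    (hp0 : l < dim M p0) (θ : Cardinal.{u}) :
    ∃ (N : Type u) (_ : L.Structure N), K.Mem N ∧ dim N p0 = dim M p0 + θ ∧
      (∀ q, q ≠ p0 → dim N q = dim M q) ∧ Cardinal.mk N = Cardinal.mk M + θ := by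
  classical
  let N := M ⊕ θ.out
  let col : N → Set (L.Relations 1) := fun b => Sum.elim (fun a => color a) (fun _ => p0) b
  let _ : L.Structure N := structOfColor hL col
  have hcol : ∀ b : N, color (L := L) b = col b := color_structOfColor hL col
  let f : M ↪[L] N := mkEmb hL Sum.inl Sum.inl_injective (fun a => hcol _)
  have hstr : K.Strong f := by
    refine strong_of_big hL K hl _ M N f hM ?_ rfl
    intro b hb
    rcases b with a | x
    · exact absurd ⟨a, rfl⟩ hb
    · rw [hcol]
      exact hp0
  have hdim : ∀ q, dim N q = dim M q + Cardinal.mk {x : θ.out // p0 = q} := by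
    intro q
    unfold dim
    have e1 : {b : N | color (L := L) b = q} ≃ {b : N // col b = q} :=
      Equiv.subtypeEquivRight (fun b => by
        change color (L := L) b = q ↔ col b = q
        rw [hcol])
    have e2 : {b : N // col b = q} ≃ {a : M // color (L := L) a = q} ⊕ {x : θ.out // p0 = q} :=
      Equiv.subtypeSum
    rw [Cardinal.mk_congr (e1.trans e2), Cardinal.mk_sum, Cardinal.lift_id, Cardinal.lift_id]
    rfl
  refine ⟨N, inferInstance, K.strong_cod hstr, ?_, ?_, ?_⟩
  · rw [hdim]
    congr 1
    have : {x : θ.out // p0 = p0} ≃ θ.out := Equiv.subtypeUnivEquiv (fun _ => rfl)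
    rw [Cardinal.mk_congr this, Cardinal.mk_out]
  · intro q hq
    rw [hdim]
    have : IsEmpty {x : θ.out // p0 = q} := ⟨fun x => hq x.2.symm⟩
    rw [Cardinal.mk_eq_zero, add_zero]
  · rw [Cardinal.mk_sum, Cardinal.lift_id, Cardinal.lift_id, Cardinal.mk_out]

theorem mk_colors_le {l : Cardinal.{u}} (h : L.card ≤ l) :
    Cardinal.mk (Set (L.Relations 1)) ≤ 2 ^ l := by
  rw [Cardinal.mk_set]
  refine Cardinal.power_le_power_left two_ne_zero (le_trans ?_ h)
  unfold FirstOrder.Language.card
  refine Cardinal.mk_le_of_injective (f := fun r => Sum.inr ⟨1, r⟩) ?_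
  intro a b hab
  simpa using hab

/-- A set meeting every color class in at most `c` points has at most `2 ^ l * c` points. -/
theorem mk_le_of_fibers {l c : Cardinal.{u}} (h : L.card ≤ l) {M : Type u} [L.Structure M]
    (B : Set M) (hB : ∀ p, Cardinal.mk (B ∩ {a | color (L := L) a = p} : Set M) ≤ c) :
    Cardinal.mk B ≤ 2 ^ l * c := by
  have h1 : B = ⋃ p : Set (L.Relations 1), (B ∩ {a | color (L := L) a = p}) := by
    ext x
    simp
  calc Cardinal.mk B = Cardinal.mk (⋃ p : Set (L.Relations 1),
          (B ∩ {a | color (L := L) a = p}) : Set M) := by rw [← h1]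
    _ ≤ Cardinal.sum fun p : Set (L.Relations 1) =>
          Cardinal.mk (B ∩ {a | color (L := L) a = p} : Set M) := Cardinal.mk_iUnion_le_sum_mk
    _ ≤ Cardinal.sum fun _ : Set (L.Relations 1) => c := Cardinal.sum_le_sum _ _ hB
    _ = Cardinal.mk (Set (L.Relations 1)) * c := Cardinal.sum_const' _ _
    _ ≤ 2 ^ l * c := mul_le_mul_left (mk_colors_le h) _

end Vale.Agent.P307
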