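import Vale.Agent.P307.Basic

open Cardinal FirstOrder FirstOrder.Language FirstOrder.Language.Structure

universe u

namespace Vale.Agent.P307

variable {L : FirstOrder.Language.{u, u}}

theorem AEC.IsLSBound.mono {K : AEC L} {l l' : Cardinal.{u}} (h : K.IsLSBound l) (hl : l ≤ l') :
    K.IsLSBound l' := by
  refine ⟨h.1.trans hl, h.2.1.trans hl, fun M _ hM A => ?_⟩
  obtain ⟨S, h1, h2, h3⟩ := h.2.2 M hM A
  exact ⟨S, h1, h2, h3.trans (add_le_add_right hl _)⟩

theorem AEC.isLSBound_LS (K : AEC L) : K.IsLSBound K.LS := by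
  have : {l | K.IsLSBound l}.Nonempty := K.exists_ls
  exact csInf_mem this

theorem AEC.isLSBound_of_LS_le (K : AEC L) {l : Cardinal.{u}} (h : K.LS ≤ l) : K.IsLSBound l :=
  K.isLSBound_LS.mono h

theorem AEC.strong_refl (K : AEC L) {M : Type u} [L.Structure M] (hM : K.Mem M) :
    K.Strong (Embedding.refl L M) := by
  have := K.strong_of_equiv (FirstOrder.Language.Equiv.refl L M) hM
  exact this

/-- recursive construction for the resolution -/
noncomputable def resT {P ι : Type u} [L.Structure P] [LinearOrder ι] [WellFoundedLT ι]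
    (F : Set P → L.Substructure P) (e : ι → P) : ι → L.Substructure P :=
  WellFounded.fix (wellFounded_lt (α := ι)) (fun i rec =>
    F ({e i} ∪ ⋃ j : {j // j < i}, ((rec j.1 j.2 : L.Substructure P) : Set P)))

theorem resT_eq {P ι : Type u} [L.Structure P] [LinearOrder ι] [WellFoundedLT ι]
    (F : Set P → L.Substructure P) (e : ι → P) (i : ι) :
    resT F e i = F ({e i} ∪ ⋃ j : {j // j < i}, ((resT F e j.1 : L.Substructure P) : Set P)) := by
  unfold resT
  rw [WellFounded.fix_eq]

theorem resolution (K : AEC L) {l : Cardinal.{u}} (hl : K.IsLSBound l) {P : Type u}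
    [L.Structure P] (hP : K.Mem P) (hcard : l < Cardinal.mk P) :
    ∃ (ι : Type u) (_ : LinearOrder ι) (_ : WellFoundedLT ι) (_ : Nonempty ι)
      (T : ι → L.Substructure P) (hT : ∀ i j, i ≤ j → T i ≤ T j),
      (∀ i j (h : i ≤ j), K.Strong (Substructure.inclusion (hT i j h))) ∧
      (∀ x, ∃ i, x ∈ T i) ∧ (∀ i, K.Strong (T i).subtype) ∧
      ∀ i, Cardinal.mk (T i) < Cardinal.mk P := by
  classical
  have hinf : ℵ₀ ≤ Cardinal.mk P := hl.1.trans hcard.le
  choose F hF1 hF2 hF3 using hl.2.2 P hP
  let ι := (Cardinal.mk P).ord.ToType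
  have hι : Cardinal.mk ι = Cardinal.mk P := Cardinal.mk_ord_toType _
  obtain ⟨e⟩ := Cardinal.eq.1 hι
  let T := resT F (e : ι → P)
  have hTeq : ∀ i, T i = F ({e i} ∪ ⋃ j : {j // j < i}, ((T j.1 : L.Substructure P) : Set P)) :=
    resT_eq F e
  have hne : Nonempty ι := by
    rw [← Cardinal.mk_ne_zero_iff, hι]
    exact (lt_of_lt_of_le Cardinal.aleph0_pos hinf).ne'
  have hsub : ∀ i j, j < i → T j ≤ T i := by
    intro i j hji x hx
    rw [hTeq i]
    apply hF1
    refine Or.inr ?_
    exact Set.mem_iUnion.2 ⟨⟨j, hji⟩, hx⟩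
  have hT : ∀ i j, i ≤ j → T i ≤ T j := by
    intro i j hij
    rcases hij.eq_or_lt with h | h
    · rw [h]
    · exact hsub j i h
  have hstr : ∀ i, K.Strong (T i).subtype := by
    intro i
    rw [hTeq i]
    exact hF2 _
  have hIio : ∀ i : ι, Cardinal.mk (Set.Iio i) < Cardinal.mk P := by
    intro i
    have := Cardinal.mk_Iio_lt i (by simp [ι])
    rwa [hι] at this
  have hcardT : ∀ i, Cardinal.mk (T i) ≤ Cardinal.mk (Set.Iio i) + l := by
    intro i
    induction i using WellFoundedLT.induction with
    | ind i ih =>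
      set a := Cardinal.mk (Set.Iio i) with ha
      set b := a + l with hb
      have hbinf : ℵ₀ ≤ b := hl.1.trans (self_le_add_left _ _)
      have h1 : ∀ j : {j // j < i}, Cardinal.mk ((T j.1 : L.Substructure P) : Set P) ≤ b := by
        intro j
        refine (ih j.1 j.2).trans (add_le_add_left ?_ _)
        exact Cardinal.mk_le_mk_of_subset (Set.Iio_subset_Iio j.2.le)
      have h2 : Cardinal.mk (⋃ j : {j // j < i}, ((T j.1 : L.Substructure P) : Set P)) ≤ b := by
        refine (Cardinal.mk_iUnion_le_sum_mk).trans ?_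
        refine (Cardinal.sum_le_sum _ (fun _ => b) h1).trans ?_
        rw [Cardinal.sum_const']
        have : Cardinal.mk {j // j < i} = a := rfl
        rw [this]
        calc a * b ≤ b * b := mul_le_mul_left (self_le_add_right _ _) _
          _ = b := Cardinal.mul_eq_self hbinf
      have h3 : Cardinal.mk (({e i} : Set P) ∪
          ⋃ j : {j // j < i}, ((T j.1 : L.Substructure P) : Set P) : Set P) ≤ b := by
        refine (Cardinal.mk_union_le _ _).trans ?_
        rw [Cardinal.mk_singleton]
        calc (1 : Cardinal) + _ ≤ 1 + b := add_le_add_right h2 _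
          _ = b := by rw [add_comm]; exact Cardinal.add_one_eq hbinf
      rw [hTeq i]
      refine (hF3 _).trans ?_
      calc _ ≤ b + l := add_le_add_left h3 _
        _ = a + l := by rw [hb, add_assoc, Cardinal.add_eq_self hl.1]
  refine ⟨ι, inferInstance, inferInstance, hne, T, hT, ?_, ?_, hstr, ?_⟩
  · intro i j h
    apply K.coherence _ (T j).subtype (hstr j)
    have : (T j).subtype.comp (Substructure.inclusion (hT i j h)) = (T i).subtype := by
      ext x; rfl
    rw [this]
    exact hstr i
  · intro x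
    refine ⟨e.symm x, ?_⟩
    rw [hTeq]
    apply hF1
    left
    simp
  · intro i
    exact lt_of_le_of_lt (hcardT i) (Cardinal.add_lt_of_lt hinf (hIio i) hcard)

end Vale.Agent.P307
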