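import Vale.Agent.P307.Normal

open Cardinal FirstOrder FirstOrder.Language FirstOrder.Language.Structure

universe u

namespace Vale.Agent.P307

variable {L : FirstOrder.Language.{u, u}}

theorem dim_le_mk (M : Type u) [L.Structure M] (q : Set (L.Relations 1)) :
    dim M q ≤ Cardinal.mk M := Cardinal.mk_set_le _

theorem exists_shrink (K : AEC L) {l : Cardinal.{u}} (hl : K.IsLSBound l)
    {M : Type u} [L.Structure M] (hM : K.Mem M) :
    ∃ (S : Type u) (_ : L.Structure S), K.Mem S ∧ Cardinal.mk S ≤ 2 ^ l ∧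
      (∀ q : Set (L.Relations 1), dim M q ≤ l → dim S q = dim M q) ∧
      (∀ q : Set (L.Relations 1), l < dim M q → l < dim S q) := by
  classical
  have hsucc : Order.succ l ≤ 2 ^ l := Order.succ_le_of_lt (Cardinal.cantor l)
  have hpow : ℵ₀ ≤ (2 : Cardinal.{u}) ^ l := hl.1.trans (Cardinal.cantor l).le
  have hex : ∀ q : Set (L.Relations 1), ∃ A : Set M, A ⊆ {a | color (L := L) a = q} ∧
      Cardinal.mk A = min (dim M q) (Order.succ l) := by
    intro q
    exact Cardinal.le_mk_iff_exists_subset.1 (min_le_left _ _)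
  choose A hA1 hA2 using hex
  let B : Set M := ⋃ q, A q
  have hB : Cardinal.mk B ≤ 2 ^ l := by
    calc Cardinal.mk B ≤ Cardinal.sum fun q => Cardinal.mk (A q) := Cardinal.mk_iUnion_le_sum_mk
      _ ≤ Cardinal.sum fun _ : Set (L.Relations 1) => (2 : Cardinal.{u}) ^ l :=
          Cardinal.sum_le_sum _ _ (fun q => by rw [hA2]; exact (min_le_right _ _).trans hsucc)
      _ = Cardinal.mk (Set (L.Relations 1)) * 2 ^ l := Cardinal.sum_const' _ _
      _ ≤ 2 ^ l * 2 ^ l := mul_le_mul_left (mk_colors_le hl.2.1) _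
      _ = 2 ^ l := Cardinal.mul_eq_self hpow
  obtain ⟨S, hS1, hS2, hS3⟩ := hl.2.2 M hM B
  have hlow : ∀ q : Set (L.Relations 1), min (dim M q) (Order.succ l) ≤ dim S q := by
    intro q
    rw [← hA2 q]
    unfold dim
    refine Cardinal.mk_le_of_injective
      (f := fun a => ⟨⟨a.1, hS1 (Set.mem_iUnion.2 ⟨q, a.2⟩)⟩, ?_⟩) ?_
    · change color (L := L) _ = q
      rw [color_subtype]
      exact hA1 q a.2
    · intro a b hab
      have h1 := congrArg Subtype.val hab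
      have h2 : a.1 = b.1 := Subtype.mk.inj h1
      exact Subtype.ext h2
  refine ⟨S, inferInstance, K.strong_dom hS2, ?_, ?_, ?_⟩
  · calc Cardinal.mk S ≤ Cardinal.mk B + l := hS3
      _ ≤ 2 ^ l + 2 ^ l := add_le_add hB (Cardinal.cantor l).le
      _ = 2 ^ l := Cardinal.add_eq_self hpow
  · intro q hq
    apply le_antisymm (dim_le_of_emb S.subtype q)
    have := hlow q
    rwa [min_eq_left (hq.trans (Order.le_succ l))] at this
  · intro q hq
    have := hlow q
    rw [min_eq_right (Order.succ_le_of_lt hq)] at this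
    exact lt_of_lt_of_le (Order.lt_succ l) this

theorem exists_normal (hL : IsMonadic L) (K : AEC L) {l : Cardinal.{u}} (hl : K.IsLSBound l)
    {M : Type u} [L.Structure M] (hM : K.Mem M) (p0 : Set (L.Relations 1))
    (hp0 : l < dim M p0) (θ : Cardinal.{u}) (hθ : 2 ^ l < θ) :
    ∃ (N : Type u) (_ : L.Structure N), K.Mem N ∧ Cardinal.mk N = θ ∧ dim N p0 = θ ∧
      (∀ q, q ≠ p0 → dim N q ≤ 2 ^ l) ∧ (∀ q, q ≠ p0 → dim M q ≤ l → dim N q = dim M q) := by
  have hpow : ℵ₀ ≤ (2 : Cardinal.{u}) ^ l := hl.1.trans (Cardinal.cantor l).le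
  have hθinf : ℵ₀ ≤ θ := hpow.trans hθ.le
  obtain ⟨S, _, hS, hS1, hS2, hS3⟩ := exists_shrink K hl hM
  obtain ⟨N, _, hN, hN1, hN2, hN3⟩ := exists_extension hL K hl hS p0 (hS3 p0 hp0) θ
  refine ⟨N, inferInstance, hN, ?_, ?_, ?_, ?_⟩
  · rw [hN3]
    exact Cardinal.add_eq_right hθinf (hS1.trans hθ.le)
  · rw [hN1]
    exact Cardinal.add_eq_right hθinf (((dim_le_mk S p0).trans hS1).trans hθ.le)
  · intro q hq
    rw [hN2 q hq]
    exact (dim_le_mk S q).trans hS1
  · intro q hq hq2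
    rw [hN2 q hq, hS2 q hq2]

theorem exists_big {l : Cardinal.{u}} (hl : ℵ₀ ≤ l) (hc : L.card ≤ l) {M : Type u}
    [L.Structure M] (hM : 2 ^ l < Cardinal.mk M) : ∃ p, l < dim (L := L) M p := by
  by_contra hcon
  push Not at hcon
  have hpow : ℵ₀ ≤ (2 : Cardinal.{u}) ^ l := hl.trans (Cardinal.cantor l).le
  have h1 : Cardinal.mk (Set.univ : Set M) ≤ 2 ^ l * l := by
    refine mk_le_of_fibers hc Set.univ fun p => ?_
    rw [Set.univ_inter]
    exact hcon p
  rw [Cardinal.mk_univ] at h1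
  have h2 : (2 : Cardinal.{u}) ^ l * l ≤ 2 ^ l := by
    calc (2 : Cardinal.{u}) ^ l * l ≤ 2 ^ l * 2 ^ l := mul_le_mul_right (Cardinal.cantor l).le _
      _ = 2 ^ l := Cardinal.mul_eq_self hpow
  exact absurd hM (not_lt.2 (h1.trans h2))

theorem dim_eq_mk_of_unique_big {l : Cardinal.{u}} (hl : ℵ₀ ≤ l) (hc : L.card ≤ l) {M : Type u}
    [L.Structure M] (hM : 2 ^ l < Cardinal.mk M) (p0 : Set (L.Relations 1))
    (h : ∀ q, q ≠ p0 → dim (L := L) M q ≤ l) : dim (L := L) M p0 = Cardinal.mk M := by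
  have hpow : ℵ₀ ≤ (2 : Cardinal.{u}) ^ l := hl.trans (Cardinal.cantor l).le
  apply le_antisymm (dim_le_mk M p0)
  by_contra hcon
  rw [not_le] at hcon
  let B : Set M := {a | color (L := L) a ≠ p0}
  have h1 : Cardinal.mk B ≤ 2 ^ l * l := by
    refine mk_le_of_fibers hc B fun p => ?_
    by_cases hp : p = p0
    · have : (B ∩ {a | color (L := L) a = p} : Set M) = ∅ := by
        ext a
        simp only [B, Set.mem_inter_iff, Set.mem_empty_iff_false, iff_false, not_and]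
        intro h1 h2
        exact h1 (h2.trans hp)
      rw [this]
      simp
    · exact (Cardinal.mk_le_mk_of_subset Set.inter_subset_right).trans (h p hp)
  have h2 : (2 : Cardinal.{u}) ^ l * l ≤ 2 ^ l := by
    calc (2 : Cardinal.{u}) ^ l * l ≤ 2 ^ l * 2 ^ l := mul_le_mul_right (Cardinal.cantor l).le _
      _ = 2 ^ l := Cardinal.mul_eq_self hpow
  have h3 : (Set.univ : Set M) ⊆ {a | color (L := L) a = p0} ∪ B := by
    intro a _
    by_cases ha : color (L := L) a = p0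
    · exact Or.inl ha
    · exact Or.inr ha
  have h4 : Cardinal.mk M ≤ dim (L := L) M p0 + Cardinal.mk B := by
    rw [← Cardinal.mk_univ]
    exact (Cardinal.mk_le_mk_of_subset h3).trans (Cardinal.mk_union_le _ _)
  have h5 : dim (L := L) M p0 + Cardinal.mk B < Cardinal.mk M :=
    Cardinal.add_lt_of_lt (hpow.trans hM.le) hcon (lt_of_le_of_lt (h1.trans h2) hM)
  exact absurd h4 (not_le.2 h5)

theorem transfer (hL : IsMonadic L) (K : AEC L) {l : Cardinal.{u}} (hl : K.IsLSBound l)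
    {κ κ' : Cardinal.{u}} (hκ : 2 ^ l < κ) (hκ' : 2 ^ l < κ') (hcat : K.Categorical κ) :
    K.Categorical κ' := by
  have huniq : ∀ (M : Type u) [L.Structure M], K.Mem M → ∀ p q : Set (L.Relations 1),
      l < dim M p → l < dim M q → p = q := by
    intro M _ hM p q hp hq
    by_contra hpq
    obtain ⟨N1, _, hN1, hc1, hd1, -, -⟩ := exists_normal hL K hl hM p hp κ hκ
    obtain ⟨N2, _, hN2, hc2, -, hd2, -⟩ := exists_normal hL K hl hM q hq κ hκ
    obtain ⟨g⟩ := hcat.2 N1 N2 hN1 hN2 hc1 hc2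
    have := dim_eq_of_equiv g p
    rw [hd1] at this
    exact absurd (this ▸ hd2 p hpq) (not_le.2 hκ)
  have hsame : ∀ (M1 M2 : Type u) [L.Structure M1] [L.Structure M2], K.Mem M1 → K.Mem M2 →
      ∀ p1 p2 : Set (L.Relations 1), l < dim M1 p1 → l < dim M2 p2 →
      p1 = p2 ∧ ∀ q, q ≠ p1 → dim M1 q = dim M2 q := by
    intro M1 M2 _ _ hM1 hM2 p1 p2 hp1 hp2
    obtain ⟨N1, _, hN1, hc1, hd1, he1, hf1⟩ := exists_normal hL K hl hM1 p1 hp1 κ hκ
    obtain ⟨N2, _, hN2, hc2, hd2, he2, hf2⟩ := exists_normal hL K hl hM2 p2 hp2 κ hκ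
    obtain ⟨g⟩ := hcat.2 N1 N2 hN1 hN2 hc1 hc2
    have hp : p1 = p2 := by
      by_contra hpq
      have := dim_eq_of_equiv g p1
      rw [hd1] at this
      exact absurd (this ▸ he2 p1 hpq) (not_le.2 hκ)
    refine ⟨hp, fun q hq => ?_⟩
    have hq1 : dim M1 q ≤ l := by
      by_contra hcon
      exact hq (huniq M1 hM1 q p1 (not_le.1 hcon) hp1)
    have hq2 : dim M2 q ≤ l := by
      by_contra hcon
      exact hq ((huniq M2 hM2 q p2 (not_le.1 hcon) hp2).trans hp.symm)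
    rw [← hf1 q hq hq1, ← hf2 q (hp ▸ hq) hq2]
    exact dim_eq_of_equiv g q
  constructor
  · obtain ⟨M, _, hM, hc⟩ := hcat.1
    obtain ⟨p, hp⟩ := exists_big (L := L) hl.1 hl.2.1 (M := M) (hc ▸ hκ)
    obtain ⟨N, _, hN, hcN, -⟩ := exists_normal hL K hl hM p hp κ' hκ'
    exact ⟨N, inferInstance, hN, hcN⟩
  · intro M1 M2 _ _ hM1 hM2 hc1 hc2
    obtain ⟨p1, hp1⟩ := exists_big (L := L) hl.1 hl.2.1 (M := M1) (hc1 ▸ hκ')
    obtain ⟨p2, hp2⟩ := exists_big (L := L) hl.1 hl.2.1 (M := M2) (hc2 ▸ hκ')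
    obtain ⟨hp, hq⟩ := hsame M1 M2 hM1 hM2 p1 p2 hp1 hp2
    apply equiv_of_dim_eq hL
    intro q
    by_cases hqp : q = p1
    · rw [hqp]
      have h1 : dim (L := L) M1 p1 = Cardinal.mk M1 :=
        dim_eq_mk_of_unique_big hl.1 hl.2.1 (hc1 ▸ hκ') p1 (fun q hq => by
          by_contra hcon
          exact hq (huniq M1 hM1 q p1 (not_le.1 hcon) hp1))
      have h2 : dim (L := L) M2 p2 = Cardinal.mk M2 :=
        dim_eq_mk_of_unique_big hl.1 hl.2.1 (hc2 ▸ hκ') p2 (fun q hq => by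
          by_contra hcon
          exact hq (huniq M2 hM2 q p2 (not_le.1 hcon) hp2))
      rw [h1, hp, h2, hc1, hc2]
    · exact hq q hqp

end Vale.Agent.P307
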